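import Vale.Agent.P146.H89.S3NeCondF
import Vale.Agent.P146.H122.S3Defs
import Vale.Agent.P146.H119.S3N7
import Vale.Agent.P146.H757.NeFin

/-!
# P146: the near end of the final version, in the size and the unit

Port of `H757.NeFin` to `EV`.
-/

open MeasureTheory ProbabilityTheory Filter Topology Set

namespace Vale.Agent.P146.S3

open Vale.Agent.P146.H418 Vale.Agent.P146.H442.U Vale.Agent.P146.H757 Vale.Agent.P146.H470
  Vale.Agent.P157.Lv Vale.Agent.P146.H317 Vale.Agent.P146.H529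

/-- the law of the window has the standing hypotheses -/
theorem lawH_ev {a0 b₁ A b : ℝ} (hb : 0 < b) (hA : 1 ≤ A) (ha0 : a0 ≤ 1 / 6) (hb₁ : 0 < b₁) :
    EV fun n q => ∀ y V al s lam η : ℝ, KW a0 b₁ q A b n y V al s lam η →
      LawH (lawOf n b y V al s lam η) q al ∧
      ∀ T, 0 < T → T ≤ 1 → ∀ u ∈ Set.Icc (0 : ℝ) 1, ∀ S : Finset (Fin n),
        (lawOf n b y V al s lam η).ffg S (1 - T / 4) u 1 ≤ n * Un b q n y T ∧
        (lawOf n b y V al s lam η).fag S (1 - T / 4) u 1 ≤ n * (4 * Un b q n y T) := by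
  filter_upwards [kw_par1 (a0 := a0) (b₁ := b₁) (b := b) hA ha0 hb₁,
    gn_ev1 (b := b) (e := 900) (s0 := 1 / 2) (s1 := 1) hb (by norm_num) (by norm_num)
      (by norm_num),
    q1g_ev (b := b) (e := 900) (s0 := 1 / 2) (s1 := 1) hb (by norm_num) (by norm_num)
      (by norm_num),
    tail_ap (b := b) (D := 2) (c := 1) one_pos hb, ev_ge 1, ev_q0] with ⟨n, q⟩ e1 e2 e3 e4 e5 hq
  dsimp only at e1 e2 e3 e4 e5 hq ⊢
  simp only [one_mul] at e2 e3 e4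
  intro y V al s lam η h
  obtain ⟨p, hv0, hyb, -, -⟩ := e1 y V al s lam η h
  have hn1 : (1 : ℝ) ≤ n := by exact_mod_cast e5
  have hn0 : (0 : ℝ) < n := by linarith
  have hy0 := h.y0
  have hVe : V - s ^ 2 + s ^ 2 = V := by ring
  constructor
  · refine ⟨h.l0, h.η0, h.η1, hv0, h.s0, hy0, e5, h.gg, ?_, rfl, hyb, ?_, ?_, ?_⟩
    · show |al| ≤ 4 * b * ((n : ℝ) ^ (q / 2) * y ^ 5 / (V - s ^ 2 + s ^ 2))
      rw [hVe]
      exact h.sg.abs_le e5 hb hy0.le h.ap h.V0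
    · exact e2 (V - s ^ 2) s lam η y V al p 0 ⟨le_rfl, zero_le_one⟩ 0 ⟨le_rfl, zero_le_one⟩
    · exact (Real.one_le_rpow hn1 (by positivity)).trans
        (H412.U.G_ge (e := 900 * q) (by linarith) e5 p.y0)
    · intro t ht u hu g hg
      rw [stL_eq (L := lawOf n b y V al s lam η) h.l0 h.η0.le hv0 h.s0 ht.1 ht.2 hu.1 hu.2 hg.1
        hg.2]
      exact e4 Bool Bool (H418.cb 0) (H418.cf (V - s ^ 2) 0) lam s η y V al
        (H418.sum_cb le_rfl zero_le_one)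
        (by rw [H418.sum_cf hv0.le le_rfl zero_le_one]; ring) p.V1 h.s0 p.lam1 h.η0 p.η1 h.ll hy0
        (by linarith [p.y1]) h.sg
  · intro T hT0 hT1 u hu S
    have h9 := e3 (V - s ^ 2) s lam η y V al p hv0 hyb (1 - T / 4) (by linarith) (by linarith)
      u hu 1 ⟨zero_le_one, le_rfl⟩ S
    have e6 : √(12 * ((n : ℝ) ^ q * y ^ 4) / (b ^ 2 * (1 - (1 - T / 4)))) = Un b q n y T := by
      unfold Un
      congr 1
      have : 1 - (1 - T / 4) = T / 4 := by ring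
      rw [this]
      field_simp
      ring
    rw [e6] at h9
    exact ⟨h9.2.1, h9.2.2⟩

/-- **The near end of the final version.** -/
theorem ne_fin {a0 b₁ A b : ℝ} (hb : 0 < b) (hA : 1 ≤ A) (ha0 : a0 ≤ 1 / 6) (hb₁ : 0 < b₁) :
    EV fun n q => ∀ y V al s lam η : ℝ, KW a0 b₁ q A b n y V al s lam η →
      (n : ℝ) ^ (-(80 * q)) * V ≤ A * s ^ 2 →
      ∀ T, (n : ℝ) ^ (-(37 * q)) * y ^ 4 ≤ T → T ≤ (n : ℝ) ^ (-(70 * q)) * y ^ 2 →
      T * (lawOf n b y V al s lam η).rrg (Sn n (2 * ⌈(n : ℝ) ^ (-(40 * q)) * (n * T)⌉₊))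
        (1 - T / 2) (1 - ((n : ℝ) ^ (-(37 * q)) * y ^ 4 +
          (n : ℝ) ^ (-(38 * q)) * y ^ 2 * √T) / (V - s ^ 2))
        (max 0 (1 - (n : ℝ) ^ (-(38 * q)) * y ^ 2 * √T / s ^ 2)) ≤
          1 / 2 * ((n : ℝ) ^ (-(37 * q)) * y ^ 4) := by
  obtain ⟨C, c, ε, K, k⟩ := kc_exists hb
  filter_upwards [nf_ev (a0 := a0) (b₁ := b₁) (Kn b C c ε K) ha0 hb₁ hA,
    lawH_ev (a0 := a0) (b₁ := b₁) hb hA ha0 hb₁] with ⟨n, q⟩ e1 e2
  dsimp only at e1 e2 ⊢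
  intro y V al s lam η h hR T h1 h2
  obtain ⟨g1, g2⟩ := e1 y V al s lam η h hR T h1 h2
  obtain ⟨H, g3⟩ := e2 y V al s lam η h
  have hVe : V - s ^ 2 + s ^ 2 = V := by ring
  have hm1 : 1 ≤ ⌈(n : ℝ) ^ (-(40 * q)) * (n * T)⌉₊ := by
    rw [Nat.one_le_ceil_iff]
    linarith
  have hN : ∀ m ∈ Finset.Icc ⌈(n : ℝ) ^ (-(40 * q)) * (n * T)⌉₊
      (2 * ⌈(n : ℝ) ^ (-(40 * q)) * (n * T)⌉₊), Nc b C c ε K q n y V T m s := fun m hm =>
    nf_all (g2 m hm) k.b0 (by linarith [k.C1]) k.C1 k.cpos k.ε0 k.K0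
  have N1 := hN _ (Finset.mem_Icc.2 ⟨le_rfl, by omega⟩)
  have hT0 : 0 < T := (g2 _ (Finset.mem_Icc.2 ⟨le_rfl, by omega⟩)).T0
  exact ne_core (L := lawOf n b y V al s lam η) (al := al) k H hT0
    (fun u hu S => (g3 T hT0 N1.T_1 u hu S).1) (fun u hu S => (g3 T hT0 N1.T_1 u hu S).2) hm1
    (fun m hm => by
      show Nc b C c ε K q n y (V - s ^ 2 + s ^ 2) T m s
      rw [hVe]
      exact hN m hm)

/-- **The near end, the literal of `S3Defs`.** -/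
theorem neFinS {b₁ A b : ℝ} (hb : 0 < b) (hA : 1 ≤ A) (hb₁ : 0 < b₁) : NeFinS b₁ A b :=
  ne_fin hb hA le_rfl hb₁

end Vale.Agent.P146.S3
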