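import Vale.Agent.P146.H122.S3a
import Vale.Agent.P146.H757.NeCondF

/-!
# P146: the window gives the logarithmic window of the near end, in the size and the unit

Port of `H757.nf_ev` to `EV`.
-/

open Filter Topology Real

namespace Vale.Agent.P146.S3

open Vale.Agent.P146.H757 Vale.Agent.P146.H470

/-- **The window gives the logarithmic window.** -/
theorem nf_ev {a0 b₁ A b : ℝ} (Kc : ℝ) (ha0 : a0 ≤ 1 / 6) (hb₁ : 0 < b₁) (hA : 1 ≤ A) :
    EV fun n q => ∀ y V al s lam η : ℝ, H418.KW a0 b₁ q A b n y V al s lam η →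
      (n : ℝ) ^ (-(80 * q)) * V ≤ A * s ^ 2 →
      ∀ T, (n : ℝ) ^ (-(37 * q)) * y ^ 4 ≤ T → T ≤ (n : ℝ) ^ (-(70 * q)) * y ^ 2 →
      1 ≤ (n : ℝ) ^ (-(40 * q)) * (n * T) ∧
      ∀ m ∈ Finset.Icc ⌈(n : ℝ) ^ (-(40 * q)) * (n * T)⌉₊
        (2 * ⌈(n : ℝ) ^ (-(40 * q)) * (n * T)⌉₊), Nf q Kc n y V T m s := by
  filter_upwards [env_ev (a0 := a0) (b₁ := b₁) (c := 24) (Kc + |log A|) hA,
    env_ev (a0 := a0) (b₁ := b₁) (c := 24) |log A| hA,
    env_ev (a0 := a0) (b₁ := b₁) (c := 24) Kc hA,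
    ev_qlt (show 0 < b₁ / 100 by positivity), ev_q0] with ⟨n, q⟩ e3 e4 e5 hbq hq
  dsimp only at e3 e4 e5 hbq hq ⊢
  intro y V al s lam η h hR T h1 h2
  have k0 := (e5 y V h.yl h.yu h.Vl h.Vu).cst
  have k1 := (e4 y V h.yl h.yu h.Vl h.Vu).cst
  obtain ⟨n0, y0, V0, L1, qL, cst, ll, yl, yu, Vl, Vu⟩ := e3 y V h.yl h.yu h.Vl h.Vu
  have s0 := h.s0
  have hA0 : 0 < A := by linarith
  have c2 : log A ≤ |log A| := le_abs_self _
  have hL0 : 0 < log n := by linarith
  have T0 : 0 < T := lt_of_lt_of_le (by positivity) h1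
  have hT1 := Real.log_le_log (by positivity) h1
  have hT2 := Real.log_le_log T0 h2
  have hs1 := Real.log_le_log (by positivity) hR
  have hs2 := Real.log_le_log (by positivity) h.s2
  simp (disch := positivity) only [Real.log_mul, Real.log_rpow, Real.log_pow] at hT1 hT2 hs1 hs2
  push_cast at hT1 hT2 hs1 hs2
  have hb1 : 100 * (q * log n) ≤ b₁ * log n := by
    have := mul_le_mul_of_nonneg_right (show 100 * q ≤ b₁ by linarith) hL0.le
    linarith
  have ha1 : a0 * log n ≤ 1 / 6 * log n := mul_le_mul_of_nonneg_right ha0 hL0.le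
  have hx1 : 1 ≤ (n : ℝ) ^ (-(40 * q)) * (n * T) := by
    refine le_of_log one_pos (by positivity) ?_
    simp (disch := positivity) only [Real.log_mul, Real.log_rpow, Real.log_one]
    linarith
  refine ⟨hx1, fun m hm => ?_⟩
  have hm' := Finset.mem_Icc.1 hm
  have hc1 : (n : ℝ) ^ (-(40 * q)) * (n * T) ≤ m :=
    (Nat.le_ceil _).trans (by exact_mod_cast hm'.1)
  have hc2 : (m : ℝ) ≤ 4 * ((n : ℝ) ^ (-(40 * q)) * (n * T)) := by
    have g3 := Nat.ceil_lt_add_one (show 0 ≤ (n : ℝ) ^ (-(40 * q)) * (n * T) by positivity)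
    have g4 : (m : ℝ) ≤ 2 * ⌈(n : ℝ) ^ (-(40 * q)) * (n * T)⌉₊ := by exact_mod_cast hm'.2
    linarith
  have m0 : (0 : ℝ) < m := by linarith
  have g6 := Real.log_le_log (by positivity) hc1
  have g7 := Real.log_le_log m0 hc2
  have h4 : Real.log 4 ≤ 2 := by
    have h2 := Real.log_le_sub_one_of_pos (x := 2) two_pos
    have e : (4 : ℝ) = 2 ^ 2 := by norm_num
    rw [e, Real.log_pow]
    push_cast
    linarith
  simp (disch := positivity) only [Real.log_mul, Real.log_rpow] at g6 g7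
  exact ⟨n0, y0, V0, T0, m0, s0, hL0, qL, k0, by linarith, by linarith, by linarith,
    by linarith, by linarith, by linarith, by linarith, by linarith, by linarith, by linarith⟩

end Vale.Agent.P146.S3
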